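import Vale.Agent.P037.Defs
import Vale.Agent.P037.MiniPattern
import Vale.Agent.P037.Bdl.B1

open Vale.Agent.P037

/-- Disproof of the polynomial ordered binary matrix-removal conjecture by a fixed
five by five pattern, with an exponential bound valid for all large sizes. -/
theorem Vale.Agent.Results.P037.ExpLowerBound.result :
    (¬ ∀ (k : ℕ) (H : Matrix (Fin k) (Fin k) Bool), 1 ≤ k → PolynomialRemoval H) ∧
    ¬ PolynomialRemoval H5 ∧
    ∀ ε : ℝ, 0 < ε → ε ≤ 1 / 100000 → ∀ n : ℕ, (2 : ℝ) ^ (1 / √ε) ≤ (n : ℝ) →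
      ∃ A : Matrix (Fin n) (Fin n) Bool, ε ≤ distFree H5 A ∧
        (numCopies H5 A : ℝ) ≤ 2 ^ (-(1 / (136 * √ε))) * (n : ℝ) ^ 10 :=
  ⟨fun h => Mini.not_poly (h 5 H5 (by norm_num)), Mini.not_poly,
    fun _ h0 h1 _ hn => Mini.quant h0 h1 hn⟩
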